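import Vale.Agent.P216.B7929.Circ

/-!
# P216-B7, row Z7: two long arcs of a cyclic covering
-/

set_option linter.all false

open Set

namespace Vale.Agent.P216.B7

open Vale.Agent.P216.Sl Vale.Agent.P216.PS Vale.Agent.P216.N929
open Vale.Agent.P216.H929B (Cov2 mv_exact glu glu_of dl_glu_of dl_glu_right)

section

variable {M : Type} [MetricSpace M] {h : C(M, Circle)}

/-- Every point has coordinate of absolute value at most `m` around `0` or around `2 m`. -/
theorem arc_cover {m : ℕ} (hm : 1 ≤ m) {p : M × Circle} (hp : p ∈ Msp h (4 * m)) :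
    p ∈ Arc h (4 * m) 0 m ∨ p ∈ Arc h (4 * m) ((2 * m : ℕ) : ℤ) m := by
  have hs : 1 ≤ 4 * m := by omega
  have hm0 : (1 : ℝ) ≤ m := by exact_mod_cast hm
  have hc1 := crd_le hs ((0 : ℤ) : ℝ) p.2
  have hc2 := lt_crd hs ((0 : ℤ) : ℝ) p.2
  by_cases h1 : |crd (4 * m) ((0 : ℤ) : ℝ) p.2| ≤ m
  · exact Or.inl ⟨hp, h1⟩
  · right
    refine ⟨hp, ?_⟩
    rw [not_le, lt_abs] at h1
    push_cast at hc1 hc2 h1 ⊢
    rcases h1 with h1 | h1
    · have h2 := crd_shift hs (c := ((0 : ℤ) : ℝ)) (c' := 2 * (m : ℝ)) (z := p.2) 0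
        (by push_cast; linarith) (by push_cast; linarith)
      push_cast at h2
      rw [h2, abs_le]
      constructor <;> linarith
    · have h2 := crd_shift hs (c := ((0 : ℤ) : ℝ)) (c' := 2 * (m : ℝ)) (z := p.2) 1
        (by push_cast; linarith) (by push_cast; linarith)
      push_cast at h2
      rw [h2, abs_le]
      constructor <;> linarith

/-- The overlap of the two long arcs. -/
theorem arc_overlap {m : ℕ} {R : ℝ} (hm : 1 ≤ m) (hR : R < m) {p : M × Circle}
    (h1 : p ∈ Arc h (4 * m) 0 (m + R)) (h2 : p ∈ Arc h (4 * m) ((2 * m : ℕ) : ℤ) (m + R)) :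
    p ∈ Arc h (4 * m) (m : ℤ) R ∨ p ∈ Arc h (4 * m) (-(m : ℤ)) R := by
  have hs : 1 ≤ 4 * m := by omega
  have hm0 : (1 : ℝ) ≤ m := by exact_mod_cast hm
  have hc1 := crd_le hs ((0 : ℤ) : ℝ) p.2
  have hc2 := lt_crd hs ((0 : ℤ) : ℝ) p.2
  have h3 := abs_le.1 h1.2
  have h4 := abs_le.1 h2.2
  push_cast at hc1 hc2 h3 h4
  by_cases h0 : 0 < crd (4 * m) 0 p.2
  · left
    refine ⟨h1.1, ?_⟩
    have e1 := crd_shift hs (c := 0) (c' := 2 * (m : ℝ)) (z := p.2) 0
      (by push_cast; linarith) (by push_cast; linarith)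
    have e2 := crd_shift hs (c := 0) (c' := (m : ℝ)) (z := p.2) 0
      (by push_cast; linarith) (by push_cast; linarith)
    push_cast at e1 e2 ⊢
    rw [e1] at h4
    rw [e2, abs_le]
    constructor <;> linarith
  · right
    refine ⟨h1.1, ?_⟩
    have e1 := crd_shift hs (c := 0) (c' := 2 * (m : ℝ)) (z := p.2) 1
      (by push_cast; linarith) (by push_cast; linarith)
    have e2 := crd_shift hs (c := 0) (c' := -(m : ℝ)) (z := p.2) 0
      (by push_cast; linarith) (by push_cast; linarith)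
    push_cast at e1 e2 ⊢
    rw [e1] at h4
    rw [e2, abs_le]
    constructor <;> linarith

/-- The short arcs lie in the overlap of the long arcs. -/
theorem arc_sub {m : ℕ} {R : ℝ} (hm : 1 ≤ m) (hR : R < m) {p : M × Circle}
    (h1 : p ∈ Arc h (4 * m) (m : ℤ) R ∨ p ∈ Arc h (4 * m) (-(m : ℤ)) R) :
    p ∈ Arc h (4 * m) 0 (m + R) ∧ p ∈ Arc h (4 * m) ((2 * m : ℕ) : ℤ) (m + R) := by
  have hs : 1 ≤ 4 * m := by omega
  have hm0 : (1 : ℝ) ≤ m := by exact_mod_cast hm
  rcases h1 with h1 | h1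
  · have h3 := abs_le.1 h1.2
    push_cast at h3
    have e1 := crd_shift hs (c := (m : ℝ)) (c' := 2 * (m : ℝ)) (z := p.2) 0
      (by push_cast; linarith) (by push_cast; linarith)
    have e2 := crd_shift hs (c := (m : ℝ)) (c' := 0) (z := p.2) 0
      (by push_cast; linarith) (by push_cast; linarith)
    push_cast at e1 e2
    refine ⟨⟨h1.1, ?_⟩, ⟨h1.1, ?_⟩⟩
    · push_cast
      rw [e2, abs_le]
      constructor <;> linarith
    · push_cast
      rw [e1, abs_le]
      constructor <;> linarith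
  · have h3 := abs_le.1 h1.2
    push_cast at h3
    have e1 := crd_shift hs (c := -(m : ℝ)) (c' := 2 * (m : ℝ)) (z := p.2) 1
      (by push_cast; linarith) (by push_cast; linarith)
    have e2 := crd_shift hs (c := -(m : ℝ)) (c' := 0) (z := p.2) 0
      (by push_cast; linarith) (by push_cast; linarith)
    push_cast at e1 e2
    refine ⟨⟨h1.1, ?_⟩, ⟨h1.1, ?_⟩⟩
    · push_cast
      rw [e2, abs_le]
      constructor <;> linarith
    · push_cast
      rw [e1, abs_le]
      constructor <;> linarith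

/-- The two short arcs are disjoint. -/
theorem arc_disj {m : ℕ} {R : ℝ} (hm : 1 ≤ m) (hR : R < m) {p : M × Circle}
    (h1 : p ∈ Arc h (4 * m) (m : ℤ) R) (h2 : p ∈ Arc h (4 * m) (-(m : ℤ)) R) : False := by
  have hs : 1 ≤ 4 * m := by omega
  have hm0 : (1 : ℝ) ≤ m := by exact_mod_cast hm
  have h3 := abs_le.1 h1.2
  have h4 := abs_le.1 h2.2
  push_cast at h3 h4
  by_cases h0 : crd (4 * m) (m : ℝ) p.2 ≤ 0
  · have e := crd_shift hs (c := (m : ℝ)) (c' := -(m : ℝ)) (z := p.2) 0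
      (by push_cast; linarith) (by push_cast; linarith)
    push_cast at e
    rw [e] at h4
    linarith
  · have e := crd_shift hs (c := (m : ℝ)) (c' := -(m : ℝ)) (z := p.2) (-1)
      (by push_cast; linarith) (by push_cast; linarith)
    push_cast at e
    rw [e] at h4
    linarith

/-- **Z7**. -/
theorem z7Goal : Z7Goal := by
  intro M _ _ h k _ n hn hN hN1
  obtain ⟨R1, hR1, hR1'⟩ := hN1 2
  obtain ⟨m, hm⟩ := exists_nat_gt R1
  have hm2 : (2 : ℝ) < m := hR1.trans_lt hm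
  have hm1 : 1 ≤ m := by
    have : (1 : ℝ) < m := by linarith
    exact_mod_cast this.le
  have hs : 1 ≤ 4 * m := by omega
  refine ⟨4 * m, hs, fun w hw => ?_⟩
  obtain ⟨n, rfl⟩ : ∃ j, n = j + 1 := ⟨n - 1, by omega⟩
  rw [Nat.add_sub_cancel] at hR1'
  -- the arcs
  set A : Set (M × Circle) := Arc h (4 * m) 0 (m + 1) with hA
  set B : Set (M × Circle) := Arc h (4 * m) ((2 * m : ℕ) : ℤ) (m + 1) with hB
  set A' : Set (M × Circle) := Arc h (4 * m) 0 (m + R1) with hA'
  set B' : Set (M × Circle) := Arc h (4 * m) ((2 * m : ℕ) : ℤ) (m + R1) with hB'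
  have hsm : ((4 * m : ℕ) : ℝ) / 2 = 2 * m := by push_cast; ring
  -- exactness on the long arcs
  have hex : ∀ c : ℤ, ExL (Arc h (4 * m) c (m + R1)) (n + 1) w := by
    intro c
    obtain ⟨R2, _, hR2⟩ := hN (m + R1)
    refine exL_arc hs (by rw [hsm]; linarith) (hR2 _ ?_)
    exact cocL_pull' hw (fun P hP => prc_mem hs hP.1) (uco_prc hs _)
  -- exactness on the overlap
  have hov : ∀ g : List (M × Circle) → k, CocL (A' ∩ B') n g → ExL (A ∩ B) n g := by
    intro g hg
    have hc : ∀ c : ℤ, (c = m ∨ c = -(m : ℤ)) → ExL (Arc h (4 * m) c 2) n g := by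
      intro c hc
      refine exL_arc hs (by rw [hsm]; linarith) (hR1' _ ?_)
      refine cocL_pull' hg (fun P hP => ?_) (uco_prc hs _)
      have h1 : prc (4 * m) c P ∈ Arc h (4 * m) c R1 := prc_arc hs (by rw [hsm]; linarith) hP
      refine arc_sub hm1 hm ?_
      rcases hc with rfl | rfl
      · exact Or.inl h1
      · exact Or.inr h1
    obtain ⟨γ1, -, e1, he1, h1⟩ := hc _ (Or.inl rfl)
    obtain ⟨γ2, -, e2, he2, h2⟩ := hc _ (Or.inr rfl)
    obtain ⟨r1, hr1, hn1⟩ := arc_near (h := h) (c := (m : ℤ)) hs (R := 1) (R' := 2) (by norm_num)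
      (by rw [hsm]; linarith)
    obtain ⟨r2, hr2, hn2⟩ := arc_near (h := h) (c := -(m : ℤ)) hs (R := 1) (R' := 2)
      (by norm_num) (by rw [hsm]; linarith)
    refine ⟨glu (Arc h (4 * m) (m : ℤ) 2) γ1 γ2, fun h0 => by omega, min (min r1 r2) (min e1 e2),
      lt_min (lt_min hr1 hr2) (lt_min he1 he2), fun l hl hsl => ?_⟩
    have s1 : ∀ x ∈ l, ∀ y ∈ l, dist x y < r1 := fun x hx y hy =>
      (hsl.2 x hx y hy).trans_le ((min_le_left _ _).trans (min_le_left _ _))
    have s2 : ∀ x ∈ l, ∀ y ∈ l, dist x y < r2 := fun x hx y hy =>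
      (hsl.2 x hx y hy).trans_le ((min_le_left _ _).trans (min_le_right _ _))
    have s3 : ∀ x ∈ l, ∀ y ∈ l, dist x y < e1 := fun x hx y hy =>
      (hsl.2 x hx y hy).trans_le ((min_le_right _ _).trans (min_le_left _ _))
    have s4 : ∀ x ∈ l, ∀ y ∈ l, dist x y < e2 := fun x hx y hy =>
      (hsl.2 x hx y hy).trans_le ((min_le_right _ _).trans (min_le_right _ _))
    obtain ⟨p, hp⟩ : ∃ p, p ∈ l := List.exists_mem_of_length_pos (by omega)
    rcases arc_overlap hm1 (by linarith) (hsl.1 p hp).1 (hsl.1 p hp).2 with hpa | hpa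
    · have hlA : ∀ q ∈ l, q ∈ Arc h (4 * m) (m : ℤ) 2 := fun q hq =>
        hn1 p hpa q (hsl.1 q hq).1.1 (s1 p hp q hq)
      rw [dl_glu_of hlA]
      exact h1 l hl ⟨hlA, s3⟩
    · have hlB : ∀ q ∈ l, q ∈ Arc h (4 * m) (-(m : ℤ)) 2 := fun q hq =>
        hn2 p hpa q (hsl.1 q hq).1.1 (s2 p hp q hq)
      rw [dl_glu_right hlB fun l' hl1 hl2 hl3 => ?_]
      · exact h2 l hl ⟨hlB, s4⟩
      · obtain ⟨q, hq⟩ : ∃ q, q ∈ l' := List.exists_mem_of_length_pos (by omega)
        exact (arc_disj hm1 (by linarith) (hl3 q hq).1 (hl3 q hq).2).elim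
  -- the covering
  have hcov : Cov2 (Msp h (4 * m)) A B := by
    obtain ⟨r1, hr1, hn1⟩ := arc_near (h := h) (c := (0 : ℤ)) hs (R := m) (R' := m + 1)
      (by linarith) (by rw [hsm]; linarith)
    obtain ⟨r2, hr2, hn2⟩ := arc_near (h := h) (c := ((2 * m : ℕ) : ℤ)) hs (R := m) (R' := m + 1)
      (by linarith) (by rw [hsm]; linarith)
    refine ⟨min r1 r2, lt_min hr1 hr2, fun l hl => ?_⟩
    rcases l with _ | ⟨p, l⟩
    · exact Or.inl (by simp)
    · rcases arc_cover hm1 (hl.1 p (by simp)) with hpa | hpa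
      · exact Or.inl fun q hq => hn1 p hpa q (hl.1 q hq)
          ((hl.2 p (by simp) q hq).trans_le (min_le_left _ _))
      · exact Or.inr fun q hq => hn2 p hpa q (hl.1 q hq)
          ((hl.2 p (by simp) q hq).trans_le (min_le_right _ _))
  have hmono : ∀ c : ℤ, Arc h (4 * m) c (m + 1) ⊆ Arc h (4 * m) c (m + R1) := fun c p hp =>
    ⟨hp.1, hp.2.trans (by linarith)⟩
  exact mv_exact hcov (hmono _) (hmono _) (hex _) (hex _) hov

end

end Vale.Agent.P216.B7
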