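import Vale.Agent.P216.B7.Props
import Vale.Agent.P216.H929B.MV

/-!
# P216-B7: coordinates on the arcs of the cyclic coverings

`crd s c z ∈ (-s/2, s/2]`: the coordinate `r` with `z = ex ((r + c) / s)`.
-/

set_option linter.all false

open Set

namespace Vale.Agent.P216.B7

open Vale.Agent.P216.Sl Vale.Agent.P216.PS Vale.Agent.P216.N929

open Real (pi_pos)

/-! ### The circle -/

theorem ex_add (a b : ℝ) : ex (a + b) = ex a * ex b := by
  rw [ex, ex, ex, mul_add, Circle.exp_add]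

theorem ex_int (n : ℤ) : ex n = 1 := Circle.exp_two_pi_mul_int n

theorem ex_add_int (a : ℝ) (n : ℤ) : ex (a + n) = ex a := by
  rw [ex_add, ex_int, mul_one]

theorem ex_pow (a : ℝ) (s : ℕ) : ex a ^ s = ex (s * a) := by
  rw [ex, ex, ← Circle.exp_natCast_mul]
  congr 1
  ring

theorem dist_circle (z w : Circle) : dist z w = ‖(z : ℂ) - w‖ := by
  rw [← dist_eq_norm]
  rfl

theorem dist_exp_eq (a b : ℝ) :
    dist (Circle.exp a) (Circle.exp b) = |2 * Real.sin ((a - b) / 2)| := by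
  have h1 : dist (Circle.exp a) (Circle.exp b) =
      ‖(Circle.exp a : ℂ) - (Circle.exp b : ℂ)‖ := dist_circle _ _
  have h2 : (Circle.exp a : ℂ) - (Circle.exp b : ℂ) =
      (Circle.exp b : ℂ) * (Complex.exp (Complex.I * ((a - b : ℝ) : ℂ)) - 1) := by
    rw [mul_sub, mul_one, Circle.coe_exp, Circle.coe_exp, ← Complex.exp_add]
    congr 2
    push_cast
    ring
  rw [h1, h2, norm_mul, Circle.norm_coe, one_mul, Complex.norm_exp_I_mul_ofReal_sub_one,
    Real.norm_eq_abs]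

theorem dist_exp_le (a b : ℝ) : dist (Circle.exp a) (Circle.exp b) ≤ |a - b| := by
  rw [dist_exp_eq, abs_mul, abs_two]
  have := Real.abs_sin_le_abs (x := (a - b) / 2)
  rw [abs_div, abs_two] at this
  linarith

theorem abs_le_dist_exp {a b : ℝ} (h : |a - b| ≤ Real.pi) :
    |a - b| ≤ Real.pi / 2 * dist (Circle.exp a) (Circle.exp b) := by
  have hp := Real.pi_pos
  have h1 := Real.mul_abs_le_abs_sin (x := (a - b) / 2) (by rw [abs_div, abs_two]; linarith)
  rw [dist_exp_eq, abs_mul, abs_two]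
  rw [abs_div, abs_two] at h1
  have h2 : 2 / Real.pi * (|a - b| / 2) * Real.pi = |a - b| := by field_simp
  nlinarith

theorem dist_ex_le (a b : ℝ) : dist (ex a) (ex b) ≤ 2 * Real.pi * |a - b| := by
  refine (dist_exp_le _ _).trans (le_of_eq ?_)
  rw [← mul_sub, abs_mul, abs_of_pos (by positivity)]

/-- The coordinate `r ∈ (-s/2, s/2]` with `z = ex ((r + c) / s)`. -/
noncomputable def crd (s : ℕ) (c : ℝ) (z : Circle) : ℝ :=
  s / (2 * Real.pi) * Complex.arg ((z * ex (-(c / s)) : Circle) : ℂ)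

theorem ex_crd {s : ℕ} (hs : 1 ≤ s) (c : ℝ) (z : Circle) : ex ((crd s c z + c) / s) = z := by
  have hs0 : (0 : ℝ) < s := by exact_mod_cast hs
  have hp := Real.pi_pos
  have h1 : 2 * Real.pi * ((crd s c z + c) / s) =
      Complex.arg ((z * ex (-(c / s)) : Circle) : ℂ) + 2 * Real.pi * (c / s) := by
    rw [crd]
    field_simp
  rw [ex, h1, Circle.exp_add, Circle.exp_arg]
  have h2 : ex (-(c / s)) * Circle.exp (2 * Real.pi * (c / s)) = 1 := by
    rw [ex, ← Circle.exp_add]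
    have : 2 * Real.pi * -(c / s) + 2 * Real.pi * (c / s) = 0 := by ring
    rw [this, Circle.exp_zero]
  rw [mul_assoc, h2, mul_one]

theorem crd_le {s : ℕ} (hs : 1 ≤ s) (c : ℝ) (z : Circle) : crd s c z ≤ s / 2 := by
  have hs0 : (0 : ℝ) < s := by exact_mod_cast hs
  have hp := Real.pi_pos
  have h1 := Complex.arg_le_pi ((z * ex (-(c / s)) : Circle) : ℂ)
  calc crd s c z ≤ s / (2 * Real.pi) * Real.pi := by
        rw [crd]
        gcongr
    _ = s / 2 := by field_simp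

theorem lt_crd {s : ℕ} (hs : 1 ≤ s) (c : ℝ) (z : Circle) : -(s / 2 : ℝ) < crd s c z := by
  have hs0 : (0 : ℝ) < s := by exact_mod_cast hs
  have hp := Real.pi_pos
  have h1 := Complex.neg_pi_lt_arg ((z * ex (-(c / s)) : Circle) : ℂ)
  calc -(s / 2 : ℝ) = s / (2 * Real.pi) * -Real.pi := by field_simp
    _ < crd s c z := by
        rw [crd]
        gcongr

theorem crd_eq {s : ℕ} (hs : 1 ≤ s) {c v : ℝ} {z : Circle} (hz : ex ((v + c) / s) = z)
    (h1 : -(s / 2 : ℝ) < v) (h2 : v ≤ s / 2) : crd s c z = v := by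
  have hs0 : (0 : ℝ) < s := by exact_mod_cast hs
  have hp := Real.pi_pos
  have h3 : z * ex (-(c / s)) = Circle.exp (2 * Real.pi * (v / s)) := by
    rw [← hz, ← ex_add, ex]
    congr 1
    field_simp
    ring
  have h4 : -Real.pi < 2 * Real.pi * (v / s) := by
    have : -(s / 2 : ℝ) / s < v / s := by gcongr
    have e : -(s / 2 : ℝ) / s = -1 / 2 := by field_simp
    rw [e] at this
    nlinarith
  have h5 : 2 * Real.pi * (v / s) ≤ Real.pi := by
    have : v / s ≤ (s / 2 : ℝ) / s := by gcongr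
    have e : (s / 2 : ℝ) / s = 1 / 2 := by field_simp
    rw [e] at this
    nlinarith
  rw [crd, h3, Circle.arg_exp h4 h5]
  field_simp

theorem crd_shift {s : ℕ} (hs : 1 ≤ s) {c c' : ℝ} {z : Circle} (j : ℤ)
    (h1 : -(s / 2 : ℝ) < crd s c z + c - c' + s * j) (h2 : crd s c z + c - c' + s * j ≤ s / 2) :
    crd s c' z = crd s c z + c - c' + s * j := by
  have hs0 : (0 : ℝ) < s := by exact_mod_cast hs
  refine crd_eq hs ?_ h1 h2
  have e : (crd s c z + c - c' + s * j + c') / s = (crd s c z + c) / s + j := by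
    field_simp
    ring
  rw [e, ex_add_int, ex_crd hs]

/-- The coordinate is Lipschitz away from the cut. -/
theorem crd_lip {s : ℕ} (hs : 1 ≤ s) {c : ℝ} {z w : Circle}
    (h : |crd s c z| + s / 4 * dist z w < s / 2) :
    |crd s c w - crd s c z| ≤ s / 4 * dist z w := by
  have hs0 : (0 : ℝ) < s := by exact_mod_cast hs
  have hp := Real.pi_pos
  set δ : ℝ := Complex.arg ((w * z⁻¹ : Circle) : ℂ) with hδ
  have hδ1 : Circle.exp δ = w * z⁻¹ := Circle.exp_arg _
  have hδ2 : |δ| ≤ Real.pi := Complex.abs_arg_le_pi _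
  have hd : |δ| ≤ Real.pi / 2 * dist z w := by
    have h1 := abs_le_dist_exp (a := 0) (b := δ) (by rw [zero_sub, abs_neg]; exact hδ2)
    rw [zero_sub, abs_neg] at h1
    have h2 : dist (Circle.exp 0) (Circle.exp δ) = dist z w := by
      rw [Circle.exp_zero, hδ1, dist_circle, dist_circle]
      have h3 : ((1 : Circle) : ℂ) - ((w * z⁻¹ : Circle) : ℂ) =
          ((z : ℂ) - (w : ℂ)) * ((z⁻¹ : Circle) : ℂ) := by
        rw [sub_mul, ← Circle.coe_mul, ← Circle.coe_mul, mul_inv_cancel]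
      rw [h3, norm_mul, Circle.norm_coe, mul_one]
    rwa [h2] at h1
  set v : ℝ := crd s c z + s * δ / (2 * Real.pi) with hv
  have hv1 : |s * δ / (2 * Real.pi)| ≤ s / 4 * dist z w := by
    rw [abs_div, abs_mul, abs_of_pos hs0, abs_of_pos (by positivity : (0 : ℝ) < 2 * Real.pi),
      div_le_iff₀ (by positivity)]
    nlinarith
  have hv2 : |v| < s / 2 := by
    rw [hv]
    have := abs_add_le (crd s c z) (s * δ / (2 * Real.pi))
    linarith
  have hv3 : ex ((v + c) / s) = w := by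
    have e : (v + c) / s = (crd s c z + c) / s + δ / (2 * Real.pi) := by
      rw [hv]
      field_simp
      ring
    rw [e, ex_add, ex_crd hs, ex]
    have e2 : 2 * Real.pi * (δ / (2 * Real.pi)) = δ := by field_simp
    rw [e2, hδ1, mul_comm, inv_mul_cancel_right]
  rw [crd_eq hs hv3 (abs_lt.1 hv2).1 (abs_lt.1 hv2).2.le, hv, add_sub_cancel_left]
  exact hv1

/-! ### Pullbacks of list cochains -/

section pull

variable {k : Type} [Field k] {E E' : Type} [PseudoMetricSpace E] [PseudoMetricSpace E']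

/-- `φ` is uniformly continuous on `X`. -/
def UCo (φ : E' → E) (X : Set E') : Prop :=
  ∀ η > 0, ∃ ε > 0, ∀ x ∈ X, ∀ y ∈ X, dist x y < ε → dist (φ x) (φ y) < η

theorem SmL.map' {φ : E' → E} {X : Set E'} {Y : Set E} (hφ : ∀ x ∈ X, φ x ∈ Y) {η ε : ℝ}
    (h : ∀ x ∈ X, ∀ y ∈ X, dist x y < ε → dist (φ x) (φ y) < η) {l : List E'}
    (hl : SmL X ε l) : SmL Y η (l.map φ) := by
  refine ⟨fun y hy => ?_, fun y hy z hz => ?_⟩
  · obtain ⟨x, hx, rfl⟩ := List.mem_map.1 hy
    exact hφ x (hl.1 x hx)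
  · obtain ⟨x, hx, rfl⟩ := List.mem_map.1 hy
    obtain ⟨x', hx', rfl⟩ := List.mem_map.1 hz
    exact h x (hl.1 x hx) x' (hl.1 x' hx') (hl.2 x hx x' hx')

theorem cocL_pull' {n : ℕ} {f : List E → k} {X : Set E'} {Y : Set E} {φ : E' → E}
    (h : CocL Y n f) (hφ : ∀ x ∈ X, φ x ∈ Y) (hu : UCo φ X) :
    CocL X n fun l => f (l.map φ) := by
  obtain ⟨η, hη, h⟩ := h
  obtain ⟨ε, hε, hu⟩ := hu η hη
  refine ⟨ε, hε, fun l hl hs => ?_⟩
  rw [N929.dl_map f φ]
  exact h _ (by rw [List.length_map, hl]) (SmL.map' hφ hu hs)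

theorem exL_pull' {n : ℕ} {f : List E → k} {X : Set E'} {Y : Set E} {φ : E' → E}
    (h : ExL Y n f) (hφ : ∀ x ∈ X, φ x ∈ Y) (hu : UCo φ X) :
    ExL X n fun l => f (l.map φ) := by
  obtain ⟨g, hg, η, hη, h⟩ := h
  obtain ⟨ε, hε, hu⟩ := hu η hη
  refine ⟨fun l => g (l.map φ), fun h0 l => hg h0 _, ε, hε, fun l hl hs => ?_⟩
  rw [N929.dl_map g φ]
  exact h _ (by rw [List.length_map, hl]) (SmL.map' hφ hu hs)

end pull

/-! ### Arcs -/

section arcs

variable {M : Type} [MetricSpace M] {h : C(M, Circle)} {s : ℕ} {c : ℤ} {R : ℝ}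

/-- The arc of half length `R` around `c`. -/
def Arc (h : C(M, Circle)) (s : ℕ) (c : ℤ) (R : ℝ) : Set (M × Circle) :=
  {p | p ∈ Msp h s ∧ |crd s c p.2| ≤ R}

/-- The coordinates on an arc. -/
noncomputable def sig (s : ℕ) (c : ℤ) (p : M × Circle) : M × ℝ := (p.1, crd s c p.2)

/-- Translation by `c`, followed by the projection. -/
noncomputable def prc (s : ℕ) (c : ℤ) (P : M × ℝ) : M × Circle := (P.1, ex ((P.2 + c) / s))

theorem prc_sig (hs : 1 ≤ s) (p : M × Circle) : prc s c (sig s c p) = p := by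
  rw [prc, sig, ex_crd hs]

theorem sig_mem (hs : 1 ≤ s) {p : M × Circle} (hp : p ∈ Arc h s c R) : sig s c p ∈ Slb h R := by
  have hs0 : (0 : ℝ) < s := by exact_mod_cast hs
  refine ⟨?_, hp.2⟩
  have h1 : p.2 ^ s = h p.1 := hp.1
  change h p.1 = ex (crd s c p.2)
  rw [← h1, ← ex_crd hs c p.2, ex_pow, mul_div_cancel₀ _ hs0.ne', ex_add_int, ex_crd hs]

theorem prc_mem (hs : 1 ≤ s) {P : M × ℝ} (hP : P ∈ Xt h) : prc s c P ∈ Msp h s := by
  have hs0 : (0 : ℝ) < s := by exact_mod_cast hs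
  change ex ((P.2 + c) / s) ^ s = h P.1
  rw [ex_pow, mul_div_cancel₀ _ hs0.ne', ex_add_int]
  exact Eq.symm hP

theorem prc_arc (hs : 1 ≤ s) (hR : R < s / 2) {P : M × ℝ} (hP : P ∈ Slb h R) :
    prc s c P ∈ Arc h s c R := by
  refine ⟨prc_mem hs hP.1, ?_⟩
  have h1 := abs_le.1 hP.2
  change |crd s c (ex ((P.2 + c) / s))| ≤ R
  rw [crd_eq hs rfl (by linarith [h1.1]) (by linarith [h1.2])]
  exact hP.2

theorem uco_prc (hs : 1 ≤ s) (X : Set (M × ℝ)) : UCo (prc s c) X := by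
  have hs0 : (1 : ℝ) ≤ s := by exact_mod_cast hs
  have hp := Real.pi_pos
  intro η hη
  refine ⟨η / 8, by positivity, fun P _ Q _ hPQ => ?_⟩
  rw [Prod.dist_eq, max_lt_iff] at hPQ ⊢
  refine ⟨hPQ.1.trans (by linarith), ?_⟩
  have h1 := dist_ex_le ((P.2 + c) / s) ((Q.2 + c) / s)
  have h2 : |(P.2 + c) / s - (Q.2 + c) / s| ≤ |P.2 - Q.2| := by
    rw [← sub_div, add_sub_add_right_eq_sub, abs_div, abs_of_pos (by linarith : (0 : ℝ) < s)]
    exact div_le_self (abs_nonneg _) hs0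
  have h3 : |P.2 - Q.2| < η / 8 := hPQ.2
  have h4 := Real.pi_lt_four
  change dist (ex ((P.2 + c) / s)) (ex ((Q.2 + c) / s)) < η
  nlinarith [abs_nonneg (P.2 - Q.2), abs_nonneg ((P.2 + c) / s - (Q.2 + c) / s)]

theorem uco_sig (hs : 1 ≤ s) (hR : R < s / 2) : UCo (sig s c) (Arc h s c R) := by
  have hs0 : (1 : ℝ) ≤ s := by exact_mod_cast hs
  intro η hη
  refine ⟨min (η / s) ((s / 2 - R) / s), lt_min (by positivity) (by
    have : 0 < (s : ℝ) / 2 - R := by linarith
    positivity), fun p hp q _ hpq => ?_⟩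
  rw [Prod.dist_eq, max_lt_iff] at hpq ⊢
  have h1 := hpq.1.trans_le (min_le_left _ _)
  have h2 := hpq.2.trans_le (min_le_left _ _)
  have h3 := hpq.2.trans_le (min_le_right _ _)
  rw [lt_div_iff₀ (by linarith)] at h1 h2 h3
  refine ⟨by
    change dist p.1 q.1 < η
    nlinarith [dist_nonneg (x := p.1) (y := q.1)], ?_⟩
  have h4 := crd_lip hs (c := c) (z := p.2) (w := q.2) (by
    have := hp.2
    nlinarith [dist_nonneg (x := p.2) (y := q.2)])
  change dist (crd s c p.2) (crd s c q.2) < η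
  rw [Real.dist_eq, abs_sub_comm]
  nlinarith [dist_nonneg (x := p.2) (y := q.2)]

/-- Points near an arc lie in a longer arc. -/
theorem arc_near (hs : 1 ≤ s) {R R' : ℝ} (hRR : R < R') (hR' : R' < s / 2) :
    ∃ r > 0, ∀ p ∈ Arc h s c R, ∀ q ∈ Msp h s, dist p q < r → q ∈ Arc h s c R' := by
  have hs0 : (1 : ℝ) ≤ s := by exact_mod_cast hs
  refine ⟨(R' - R) / s, div_pos (by linarith) (by linarith), fun p hp q hq hpq => ⟨hq, ?_⟩⟩
  rw [Prod.dist_eq, max_lt_iff] at hpq
  have h3 := hpq.2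
  rw [lt_div_iff₀ (by linarith)] at h3
  have h5 := hp.2
  have h4 := crd_lip hs (c := c) (z := p.2) (w := q.2) (by
    nlinarith [dist_nonneg (x := p.2) (y := q.2)])
  have h6 := abs_sub_abs_le_abs_sub (crd s c q.2) (crd s c p.2)
  nlinarith [dist_nonneg (x := p.2) (y := q.2)]

/-- Exactness on a slab gives exactness on the arc. -/
theorem exL_arc {k : Type} [Field k] (hs : 1 ≤ s) (hR : R < s / 2) {n : ℕ}
    {f : List (M × Circle) → k} (hf : ExL (Slb h R) n fun l => f (l.map (prc s c))) :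
    ExL (Arc h s c R) n f := by
  have h1 := exL_pull' hf (fun p hp => sig_mem hs hp) (uco_sig (c := c) hs hR)
  have h2 : (fun l : List (M × Circle) => (fun l' => f (l'.map (prc s c))) (l.map (sig s c))) =
      f := by
    funext l
    change f ((l.map (sig s c)).map (prc s c)) = f l
    rw [List.map_map]
    congr 1
    conv_rhs => rw [← List.map_id l]
    exact List.map_congr_left fun p _ => prc_sig hs p
  rwa [h2] at h1

end arcs

end Vale.Agent.P216.B7
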